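import Vale.Agent.P032.H187.Product
import Vale.Agent.P032.H187.Swap
import Vale.Agent.P032.H201.Collar
import Vale.Agent.P032.H201.Cusp
import Vale.Agent.P032.H255.TwoLine
import Vale.Agent.P032.H259.TwoArc
import Vale.Agent.P032.H298.TypeI
import Vale.Agent.P032.H306.SpQ
import Vale.Agent.P032.H326.Fan5
import Vale.Agent.P032.H326.Rays5
import Vale.Agent.P032.H326.Window
import Vale.Agent.P032.H338.Five
import Vale.Agent.P032.H338.Letters
import Vale.Agent.P032.H343.Par2
import Vale.Agent.P032.H383.KApex
import Vale.Agent.P032.H383.Letters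
import Vale.Agent.P032.H383.Sweep
import Vale.Agent.P032.H396.Curve
import Vale.Agent.P032.H396.Kill
import Vale.Agent.P032.H396.Left
import Vale.Agent.P032.H396.Win
import Vale.Agent.P032.H403.DClosed
import Vale.Agent.P032.H403.DFin
import Vale.Agent.P032.H403.Iso5
import Vale.Agent.P032.H403.IsoFive
import Vale.Agent.P032.H403.Penta
import Vale.Agent.P032.H406.TriJ
import Vale.Agent.P032.H416.Props2
import Vale.Agent.P032.H429.Half
import Vale.Agent.P032.H429.Hull
import Vale.Agent.P032.H429.Types
import Vale.Agent.P032.H429.Types2
import Vale.Agent.P032.H460.Border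
import Vale.Agent.P032.H460.Count
import Vale.Agent.P032.H460.FullB
import Vale.Agent.P032.H460.Link
import Vale.Agent.P032.H460.ParK
import Vale.Agent.P032.H471.Cross
import Vale.Agent.P032.H471.Inst
import Vale.Agent.P032.H471.Jnet
import Vale.Agent.P032.H484.MLLR
import Vale.Agent.P032.H492.Full
import Vale.Agent.P032.H492.TwoJ
import Vale.Agent.P032.H503.Ray3
import Vale.Agent.P032.H533.TwoTwo
import Vale.Agent.P032.H538.FullEE
import Vale.Agent.P032.H538.RayOne
import Vale.Agent.P032.H538.T1
import Vale.Agent.P032.H561.Lock
import Vale.Agent.P032.H561.Lock2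
import Vale.Agent.P032.H594.JZero
import Vale.Agent.P032.H597.W3
import Vale.Agent.P032.H715.Collar
import Vale.Agent.P032.H715.Sector
import Vale.Agent.P032.H715.Sides
import Vale.Agent.P032.H738.StarE
import Vale.Agent.P032.H747.Multi
import Vale.Agent.P032.H747.PairI
import Vale.Agent.P032.H780.PairSp
import Vale.Agent.P032.H780.Special
import Vale.Agent.P032.H800.Cusp
import Vale.Agent.P032.H800.OneRay
import Vale.Agent.P032.H802.Closing
import Vale.Agent.P032.H802.Swap
import Vale.Agent.P032.H802.Wedge
import Vale.Agent.P032.H809.Side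
import Vale.Agent.P032.H815.Prop
import Vale.Agent.P032.H824.Cone
import Vale.Agent.P032.H824.ZoneCol
import Vale.Agent.P032.H824.ZoneEx
import Vale.Agent.P032.H838.KFour
import Vale.Agent.P032.H889.PairRule
import Vale.Agent.P032.H926.Box
import Vale.Agent.P032.H926.Close
import Vale.Agent.P032.H926.Closing
import Vale.Agent.P032.H926.Edge
import Vale.Agent.P032.H926.NearFar
import Vale.Agent.P032.H928.Full
import Vale.Agent.P032.H928.Glue
import Vale.Agent.P032.H928.S1
import Vale.Agent.P032.H93.Four
import Vale.Agent.P032.H93.Frame
import Vale.Agent.P032.H93.Names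
import Vale.Agent.P032.H93.PrEv
import Vale.Agent.P032.H946.JTwo3
import Vale.Agent.P032.H98.AntiP
import Vale.Agent.P032.H98.Star
import Vale.Agent.P032.H98.StarFin
import Vale.Agent.P032.H985.Comb
import Vale.Agent.P032.H985.Five
import Vale.Agent.P032.H987.Cls
import Vale.Agent.P032.H987.Sign
import Vale.Agent.P032.H987.Sweep
import Vale.Agent.P032.H987.Tri
import Vale.Agent.P032.H987.Turn
import Vale.Agent.P032.H987.Zone
import Vale.Agent.P032.H989.Conv
import Vale.Agent.P032.H989.HPair
import Vale.Agent.P032.H989.Prism
import Vale.Agent.P032.S5.H767.Five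
import Vale.Agent.P032.S5.H824.Common
import Vale.Agent.P032.Six.Star

/-!
# P032: the rule files in one import

This file only imports the landed files with the local rules of the frame `Irr U T` (letters, sixty
degree rule, product rule, antipodal rules, side events, wedges, swaps, prisms, isolation, signs,
networks, sweeping, windows), so that they can be used together.
-/
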